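import Vale.Agent.P302.StarFinal
import Vale.Agent.P302.StarTop

/-!
P302: the modified integer round-up conjecture for bin packing is false, and `OPT - LP` is
unbounded.
-/

namespace Vale.Agent.Results.P302.Disproof

open Vale.Agent.P302

theorem result :
    (¬ ∀ (n : ℕ) (a : Fin n → ℚ), IsInstance a → (OPT a : ℤ) ≤ ⌈LP a⌉ + 1) ∧
    ∀ K : ℕ, ∃ m₀ : ℕ, ∀ m : ℕ, m₀ ≤ m → ∃ (n : ℕ) (a : Fin n → ℚ),
      IsInstance a ∧ OPT a = m ∧ (K : ℝ) ≤ (OPT a : ℝ) - LP a := by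
  have h := Star.gap_of_top (fun v hv => Star.Has.top hv)
  refine ⟨Star.not_mirup_of_gap ?_, h⟩
  obtain ⟨m₀, hm⟩ := h 2
  obtain ⟨n, a, h1, _, h3⟩ := hm m₀ le_rfl
  exact ⟨n, a, h1, by exact_mod_cast h3⟩

end Vale.Agent.Results.P302.Disproof
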