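import Vale.Agent.P302.StarFinal
import Vale.Agent.P302.StarSizeFinal

/-!
P302: the modified integer round-up conjecture for bin packing is false, and the gap `OPT - LP` can
be as large as a constant times `sqrt (log OPT / log log OPT)`, for every large value of `OPT`.
-/

namespace Vale.Agent.Results.P302.DisproofRate

open Vale.Agent.P302

theorem result :
    (¬ ∀ (n : ℕ) (a : Fin n → ℚ), IsInstance a → (OPT a : ℤ) ≤ ⌈LP a⌉ + 1) ∧
    ∃ c : ℝ, 0 < c ∧ ∃ m₀ : ℕ, ∀ m : ℕ, m₀ ≤ m → ∃ (n : ℕ) (a : Fin n → ℚ),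
      IsInstance a ∧ OPT a = m ∧
        c * Real.sqrt (Real.log m / Real.log (Real.log m)) ≤ (OPT a : ℝ) - LP a := by
  refine ⟨Star.not_mirup_of_gap ?_, 1 / 64, by norm_num, Star.rate⟩
  obtain ⟨n, a, h1, h2, _⟩ := Star.gap_small 32
  refine ⟨n, a, h1, le_trans ?_ h2⟩
  norm_num

end Vale.Agent.Results.P302.DisproofRate
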